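import Vale.Agent.P299.H598.IX.Op
import Vale.Agent.P299.H956.D1.Pull
import Vale.Agent.P299.H835.IX.TenF

/-!
# P299, INDEX-LIFT: the lift of a torus action to `Λ^{*,0} ⊗ (-kK)` and to direct sums
-/

open scoped Manifold ContDiff ComplexOrder Topology Matrix ComplexConjugate
open MeasureTheory Set Filter
open Vale.Agent.P272.K Vale.Agent.P272.K.INT Vale.Agent.P299.H863 Vale.Agent.P299.IX.Fock

set_option linter.unusedSectionVars false

noncomputable section

namespace Vale.Agent.P299.IX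

/-! ### calculus -/

/-- `lam (M y)` inherits properties stable under sums and products -/
theorem lam_ind {n : ℕ} {α : Type*} {P : (α → ℂ) → Prop} (h0 : ∀ c : ℂ, P fun _ => c)
    (hs : ∀ (s : Finset (Fin n)) (f : Fin n → α → ℂ), (∀ i ∈ s, P (f i)) →
      P fun y => ∑ i ∈ s, f i y)
    (hm : ∀ f g, P f → P g → P fun y => f y * g y)
    {M : α → Matrix (Fin n) (Fin n) ℂ} (hM : ∀ i j, P fun y => M y i j) (K I : FI n) :
    P fun y => lam (M y) K I := by
  have key : ∀ K, P fun y => (lam (M y) *ᵥ ev I) K := by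
    induction I using Finset.induction_on_min with
    | empty =>
      intro K
      simp only [lam_ev_empty]
      exact h0 _
    | insert i I hi ih =>
      intro K
      have h1 : (fun y => (lam (M y) *ᵥ ev (insert i I)) K) = fun y => ∑ p ∈ K,
          M y p i * (sg p K * (lam (M y) *ᵥ ev I) (K.erase p)) := by
        ext y
        rw [lam_ev_insert (M y) hi, Fock.epsV_mulVec]
        simp only [eps_mulVec, mul_ite, mul_zero]
        rw [Finset.sum_ite_mem, Finset.univ_inter]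
      rw [h1]
      refine hs K _ fun p _ => hm _ _ (hM p i) (hm _ _ (h0 _) (ih _))
  have h2 := key K
  simp only [mulVec_ev] at h2
  exact h2

section
variable {n : ℕ} {E : Type*} [NormedAddCommGroup E] [NormedSpace ℝ E] {m : WithTop ℕ∞}
  {M : E → Matrix (Fin n) (Fin n) ℂ} {q : E}

theorem contDiffAt_lam (h : ∀ i j, ContDiffAt ℝ m (fun y => M y i j) q) (K I : FI n) :
    ContDiffAt ℝ m (fun y => lam (M y) K I) q :=
  lam_ind (P := fun f => ContDiffAt ℝ m f q) (fun _ => contDiffAt_const)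
    (fun _ _ hf => ContDiffAt.sum hf) (fun _ _ hf hg => hf.mul hg) h K I

theorem contDiffAt_det' (h : ∀ i j, ContDiffAt ℝ m (fun y => M y i j) q) :
    ContDiffAt ℝ m (fun y => (M y).det) q := by
  have : (fun y => (M y).det) = fun y => ∑ σ : Equiv.Perm (Fin n),
      (Equiv.Perm.sign σ : ℂ) * ∏ i, M y (σ i) i := by
    funext y; rw [Matrix.det_apply']
  rw [this]
  exact ContDiffAt.sum fun σ _ => contDiffAt_const.mul (contDiffAt_prod fun i _ => h _ _)

end

/-! ### the Jacobian matrix of a torus action -/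

section
variable {r n : ℕ} {Z : Type} [TopologicalSpace Z] [ChartedSpace (Cm n) Z] {w : D.FormM n Z}
  (T : D.TorusAct r n Z w) {e e' e'' e₁ : Chart n Z} {x : Z}

/-- **Smoothness of the Jacobian matrix in `(t, z)`** -/
theorem jacF_smooth (t : Fin r → ℝ) (h : At e x) (h' : At e' (T.a t x)) (p i : Fin n) :
    ContDiffAt ℝ ∞ (fun q : (Fin r → ℝ) × Cm n => D.jacF (T.a q.1) e e' (e.symm q.2) p i)
      (t, e x) := by
  have h1 := T.smooth t x e e' h h'
  -- the partial derivatives
  have h2 : ∀ v : Cm n, ContDiffAt ℝ ∞ (fun q : (Fin r → ℝ) × Cm n =>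
      fderiv ℝ (fun z => e' (T.a q.1 (e.symm z)) p) q.2 v) (t, e x) := by
    intro v
    have h3 : ContDiffAt ℝ ∞ (fun y : ((Fin r → ℝ) × Cm n) × Cm n =>
        e' (T.a y.1.1 (e.symm y.2)) p) ((t, e x), (t, e x).2) := by
      have h4 : ContDiffAt ℝ ∞ (fun y : ((Fin r → ℝ) × Cm n) × Cm n => (y.1.1, y.2))
          ((t, e x), e x) :=
        (contDiffAt_fst.comp _ contDiffAt_fst).prodMk contDiffAt_snd
      have h5 : ContDiffAt ℝ ∞ (fun y : ((Fin r → ℝ) × Cm n) × Cm n =>
          e' (T.a y.1.1 (e.symm y.2))) ((t, e x), e x) :=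
        ContDiffAt.comp (g := fun q : (Fin r → ℝ) × Cm n => e' (T.a q.1 (e.symm q.2)))
          ((t, e x), e x) h1 h4
      exact contDiffAt_pi.1 h5 p
    have h6 := ContDiffAt.fderiv (𝕜 := ℝ) (n := ∞) (m := ∞)
      (f := fun (q : (Fin r → ℝ) × Cm n) (z : Cm n) => e' (T.a q.1 (e.symm z)) p)
      (g := fun q => q.2) (x₀ := (t, e x)) h3 contDiffAt_snd (by exact le_rfl)
    exact h6.clm_apply contDiffAt_const
  have h7 : ContDiffAt ℝ ∞ (fun q : (Fin r → ℝ) × Cm n =>
      (fderiv ℝ (fun z => e' (T.a q.1 (e.symm z)) p) q.2 (Pi.single i 1) -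
        Complex.I * fderiv ℝ (fun z => e' (T.a q.1 (e.symm z)) p) q.2
          (Pi.single i Complex.I)) / 2) (t, e x) :=
    ((h2 _).sub (contDiffAt_const.mul (h2 _))).div_const 2
  refine h7.congr_of_eventuallyEq ?_
  have h8 : ∀ᶠ q : (Fin r → ℝ) × Cm n in 𝓝 (t, e x), q.2 ∈ e.target :=
    (continuousAt_snd (p := (t, e x))).eventually h.nhds_target
  filter_upwards [h8] with q hq
  show dz i (fun z => e' (T.a q.1 (e.symm z)) p) (e (e.symm q.2)) = _
  rw [e.right_inv hq]
  rfl

variable [IsManifold 𝓘(ℂ, Cm n) ω Z]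

theorem jacF_self_of_id {f : Z → Z} (hf : f = fun x => x) (h : At e x) :
    D.jacF f e e x = 1 := by
  rw [hf]
  show jacM e e x = 1
  exact jacM_self h

theorem torus_comp (s t : Fin r → ℝ) (h : At e x) (h' : At e' (T.a t x))
    (h'' : At e'' (T.a s (T.a t x))) :
    D.jacF (T.a (s + t)) e e'' x = D.jacF (T.a s) e' e'' (T.a t x) * D.jacF (T.a t) e e' x := by
  have h1 : T.a (s + t) = fun y => T.a s (T.a t y) := funext fun y => T.add s t y
  rw [h1]
  exact H956.jacF_comp (T.hol t).contMDiffAt (T.hol s).contMDiffAt h h' h''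

theorem torus_det_ne (t : Fin r → ℝ) (h : At e x) (h' : At e' (T.a t x)) :
    (D.jacF (T.a t) e e' x).det ≠ 0 := by
  have hid : T.a (-t) (T.a t x) = x := by rw [← T.add, neg_add_cancel, T.zero]
  have h2 : At e (T.a (-t) (T.a t x)) := by rw [hid]; exact h
  have h3 := torus_comp T (-t) t h h' h2
  have h4 : T.a (-t + t) = fun x => x := funext fun y => by rw [neg_add_cancel, T.zero]
  rw [jacF_self_of_id h4 h] at h3
  intro h0
  have h5 := congrArg Matrix.det h3
  rw [Matrix.det_one, Matrix.det_mul, h0, mul_zero] at h5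
  exact one_ne_zero h5

theorem torus_left (t : Fin r → ℝ) (h₁ : At e₁ x) (h : At e x) (h' : At e' (T.a t x)) :
    D.jacF (T.a t) e₁ e' x = D.jacF (T.a t) e e' x * jacM e₁ e x :=
  H956.jacF_left (T.hol t).contMDiffAt h₁ h h'

theorem torus_right (t : Fin r → ℝ) (h : At e x) (h' : At e' (T.a t x)) (h₁ : At e₁ (T.a t x)) :
    D.jacF (T.a t) e e₁ x = jacM e' e₁ (T.a t x) * D.jacF (T.a t) e e' x :=
  H956.jacF_right (T.hol t).contMDiffAt h h' h₁

theorem torus_pull (hw : Vale.Agent.P272.K.IsHermitian w) (t : Fin r → ℝ) (h : At e x)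
    (h' : At e' (T.a t x)) :
    w e (e x) = (D.jacF (T.a t) e e' x)ᵀ * w e' (e' (T.a t x)) *
      (D.jacF (T.a t) e e' x).map (starRingEnd ℂ) := by
  rw [← T.iso t e x h]
  exact H956.pullM_eq hw.isForm (T.hol t).contMDiffAt h h'

end

/-! ### the metric of the bundle under a change of frame by an invertible matrix -/

section
variable {n : ℕ}

lemma chg_inv {A B J : Matrix (Fin n) (Fin n) ℂ} (hJ : IsUnit J.det)
    (h : A = Jᵀ * B * J.map (starRingEnd ℂ)) :
    J.map (starRingEnd ℂ) * A⁻¹ * Jᵀ = B⁻¹ := by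
  have hJt : IsUnit Jᵀ.det := by rwa [Matrix.det_transpose]
  have hJc : IsUnit (J.map (starRingEnd ℂ)).det := by
    rw [← RingHom.mapMatrix_apply, ← RingHom.map_det]
    exact hJ.map _
  rw [h, Matrix.mul_inv_rev, Matrix.mul_inv_rev, ← Matrix.mul_assoc,
    ← Matrix.mul_assoc, Matrix.mul_nonsing_inv _ hJc, Matrix.one_mul, Matrix.mul_assoc,
    Matrix.nonsing_inv_mul _ hJt, Matrix.mul_one]

lemma chg_det {A B J : Matrix (Fin n) (Fin n) ℂ} (h : A = Jᵀ * B * J.map (starRingEnd ℂ)) :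
    A.det = ((‖J.det‖ ^ 2 : ℝ) : ℂ) * B.det := by
  rw [h, Matrix.det_mul, Matrix.det_mul, Matrix.det_transpose,
    ← RingHom.mapMatrix_apply, ← RingHom.map_det, Complex.ofReal_pow, ← Complex.mul_conj' J.det]
  ring

/-- the fibre metric of `Λ^{*,0} ⊗ (-kK)` times the volume density -/
lemma chg_metric {A B J : Matrix (Fin n) (Fin n) ℂ} (k : ℕ) (hdet : J.det ≠ 0)
    (h : A = Jᵀ * B * J.map (starRingEnd ℂ)) :
    ((J.det⁻¹) ^ k • lam Jᵀ)ᴴ * (A.det ^ (k + 1) • lam A⁻¹) * ((J.det⁻¹) ^ k • lam Jᵀ) =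
      ((‖J.det‖ ^ 2 : ℝ) : ℂ) • (B.det ^ (k + 1) • lam B⁻¹) := by
  rw [Matrix.conjTranspose_smul, Matrix.smul_mul, Matrix.mul_smul, Matrix.smul_mul,
    Matrix.mul_smul, Matrix.smul_mul, ← lam_conjTranspose, ← lam_mul, ← lam_mul, smul_smul,
    smul_smul]
  have hct : (Jᵀ)ᴴ = J.map (starRingEnd ℂ) := by
    ext i j; simp [Matrix.conjTranspose_apply, Matrix.transpose_apply]
  rw [hct, chg_inv (isUnit_iff_ne_zero.2 hdet) h, smul_smul]
  congr 1
  rw [chg_det h, mul_pow, star_pow, ← starRingEnd_apply, map_inv₀,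
    Complex.ofReal_pow, ← Complex.mul_conj' J.det]
  have hc : (starRingEnd ℂ) J.det ≠ 0 := by simpa using hdet
  rw [inv_pow, inv_pow]
  field_simp
  ring

end

/-! ### the lift to `Λ^{*,0} ⊗ (-kK)` -/

section
variable {r n : ℕ} {Z : Type} [TopologicalSpace Z] [ChartedSpace (Cm n) Z]
  [IsManifold 𝓘(ℂ, Cm n) ω Z] {w : D.FormM n Z}

/-- **The lift of the torus action to `Λ^{*,0} ⊗ (-kK)`** -/
def liftFB (T : D.TorusAct r n Z w) (k : ℕ) (hw : IsKahler w) : Lift T (FB k hw) where
  R t e e' x := ((D.jacF (T.a t) e e' x).det⁻¹) ^ k • lam (D.jacF (T.a t) e e' x)ᵀ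
  left t e₁ e e' x h₁ h h' := by
    rw [torus_left T t h₁ h h']
    show (((jacM e₁ e x).det⁻¹) ^ k • lam (jacM e₁ e x)ᵀ) * _ = _
    rw [Matrix.det_mul, Matrix.transpose_mul, lam_mul, mul_inv, mul_pow,
      Matrix.smul_mul, Matrix.mul_smul, smul_smul]
    congr 1
    ring
  right t e e' e₁ x h h' h₁ := by
    rw [torus_right T t h h' h₁]
    show _ * (((jacM e' e₁ (T.a t x)).det⁻¹) ^ k • lam (jacM e' e₁ (T.a t x))ᵀ) = _
    rw [Matrix.det_mul, Matrix.transpose_mul, lam_mul, mul_inv, mul_pow,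
      Matrix.smul_mul, Matrix.mul_smul, smul_smul]
    congr 1
    ring
  zero e x h := by
    rw [jacF_self_of_id (funext T.zero) h]
    simp [lam_one]
  add s t e e' e'' x h h' h'' := by
    rw [torus_comp T s t h h' h'', Matrix.det_mul, Matrix.transpose_mul, lam_mul, mul_inv,
      mul_pow, Matrix.smul_mul, Matrix.mul_smul, smul_smul]
    congr 1
    ring
  per j e x h := by
    rw [jacF_self_of_id (funext (T.per j)) h]
    simp [lam_one]
  iso t e e' x h h' :=
    chg_metric k (torus_det_ne T t h h') (torus_pull T hw.toIsHermitian t h h')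
  smooth t e e' x h h' i j := by
    have h0 := fun p i => jacF_smooth T t h h' p i
    have h1 : ContDiffAt ℝ ∞ (fun q : (Fin r → ℝ) × Cm n =>
        (D.jacF (T.a q.1) e e' (e.symm q.2)).det) (t, e x) := contDiffAt_det' h0
    have h2 : ContDiffAt ℝ ∞ (fun q : (Fin r → ℝ) × Cm n =>
        ((D.jacF (T.a q.1) e e' (e.symm q.2)).det)⁻¹ ^ k) (t, e x) := by
      refine (h1.inv ?_).pow k
      show (D.jacF (T.a t) e e' (e.symm (e x))).det ≠ 0
      rw [h.left_inv]
      exact torus_det_ne T t h h'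
    have h3 : ContDiffAt ℝ ∞ (fun q : (Fin r → ℝ) × Cm n =>
        lam (D.jacF (T.a q.1) e e' (e.symm q.2))ᵀ i j) (t, e x) :=
      contDiffAt_lam (fun p q => h0 q p) i j
    exact h2.mul h3

theorem liftFB_R (T : D.TorusAct r n Z w) (k : ℕ) (hw : IsKahler w) (t : Fin r → ℝ)
    (e e' : Chart n Z) (x : Z) : (liftFB T k hw).R t e e' x =
      ((D.jacF (T.a t) e e' x).det⁻¹) ^ k • lam (D.jacF (T.a t) e e' x)ᵀ := rfl

/-- the pull back by `T.a t` of a local expression, in the form of `TenInv` -/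
theorem liftFB_iff (T : D.TorusAct r n Z w) (k : ℕ) (hw : IsKahler w) (t : Fin r → ℝ)
    {e e' : Chart n Z} {x : Z} (h : At e x) (h' : At e' (T.a t x)) (u v : FI n → ℂ) :
    (liftFB T k hw).R t e e' x *ᵥ v = u ↔
      (D.jacF (T.a t) e e' x).det ^ k • u = lam (D.jacF (T.a t) e e' x)ᵀ *ᵥ v := by
  have hd := pow_ne_zero k (torus_det_ne T t h h')
  rw [liftFB_R, Matrix.smul_mulVec, inv_pow]
  constructor
  · intro h1
    rw [← h1, smul_smul, mul_inv_cancel₀ hd, one_smul]
  · intro h1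
    rw [← h1, smul_smul, inv_mul_cancel₀ hd, one_smul]

/-- a family of local expressions fixed by the pull back has `T`-invariant tensors -/
theorem tenInv_of_lift (T : D.TorusAct r n Z w) (k : ℕ) (hw : IsKahler w) (t : Fin r → ℝ)
    {g : Chart n Z → Cm n → FI n → ℂ}
    (hg : ∀ e e' x, At e x → At e' (T.a t x) →
      (liftFB T k hw).R t e e' x *ᵥ g e' (e' (T.a t x)) = g e (e x)) (p : ℕ) :
    D.TenInv k (T.a t) (fun e z => ten p (g e z)) :=
  tenInv_ten (fun e e' x hx hx' => (liftFB_iff T k hw t hx hx' _ _).1 (hg e e' x hx hx')) p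

end

/-! ### direct sums -/

section
variable {r n : ℕ} {Z : Type} [TopologicalSpace Z] [ChartedSpace (Cm n) Z] {w : D.FormM n Z}
  {T : D.TorusAct r n Z w} {κ o : Type*} [Fintype κ] [DecidableEq κ] [Fintype o] [DecidableEq o]
  {B : o → Bun n Z κ}

/-- **The lift to a direct sum** -/
def Lift.sum (L : ∀ S, Lift T (B S)) : Lift T (Bun.sum B) where
  R t e e' x := Matrix.blockDiagonal fun S => (L S).R t e e' x
  left t e₁ e e' x h₁ h h' := by
    show Matrix.blockDiagonal (fun S => (B S).tr e₁ e x) * _ = _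
    rw [← Matrix.blockDiagonal_mul]
    congr 1
    funext S
    exact (L S).left t e₁ e e' x h₁ h h'
  right t e e' e₁ x h h' h₁ := by
    show _ * Matrix.blockDiagonal (fun S => (B S).tr e' e₁ (T.a t x)) = _
    rw [← Matrix.blockDiagonal_mul]
    congr 1
    funext S
    exact (L S).right t e e' e₁ x h h' h₁
  zero e x h := by
    have : (fun S => (L S).R 0 e e x) = 1 := funext fun S => (L S).zero e x h
    rw [this, Matrix.blockDiagonal_one]
  add s t e e' e'' x h h' h'' := by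
    rw [← Matrix.blockDiagonal_mul]
    congr 1
    funext S
    exact (L S).add s t e e' e'' x h h' h''
  per j e x h := by
    have : (fun S => (L S).R (fun i => (j i : ℝ)) e e x) = 1 :=
      funext fun S => (L S).per j e x h
    rw [this, Matrix.blockDiagonal_one]
  iso t e e' x h h' := by
    show (Matrix.blockDiagonal fun S => (L S).R t e e' x)ᴴ *
      (Matrix.blockDiagonal fun S => (B S).H e (e x)) *
      (Matrix.blockDiagonal fun S => (L S).R t e e' x) =
      _ • Matrix.blockDiagonal fun S => (B S).H e' (e' (T.a t x))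
    rw [Matrix.blockDiagonal_conjTranspose, ← Matrix.blockDiagonal_mul,
      ← Matrix.blockDiagonal_mul, ← Matrix.blockDiagonal_smul]
    congr 1
    funext S
    exact (L S).iso t e e' x h h'
  smooth t e e' x h h' p q := by
    obtain ⟨I, S⟩ := p
    obtain ⟨J, S'⟩ := q
    simp only [Matrix.blockDiagonal_apply]
    split_ifs with hS
    · exact (L S).smooth t e e' x h h' I J
    · exact contDiffAt_const

theorem Lift.sum_R (L : ∀ S, Lift T (B S)) (t : Fin r → ℝ) (e e' : Chart n Z) (x : Z) :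
    (Lift.sum L).R t e e' x = Matrix.blockDiagonal fun S => (L S).R t e e' x := rfl

theorem Lift.sum_mulVec (L : ∀ S, Lift T (B S)) (t : Fin r → ℝ) (e e' : Chart n Z) (x : Z)
    (v : κ × o → ℂ) (I : κ) (S : o) :
    ((Lift.sum L).R t e e' x *ᵥ v) (I, S) = ((L S).R t e e' x *ᵥ fun J => v (J, S)) I :=
  Bun.blockDiagonal_mulVec _ _ _ _

end

end Vale.Agent.P299.IX
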